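import Vale.Agent.P181.H382.Defs

set_option autoImplicit false

/-!
# P181, line LL, block L3: the contents
-/

namespace Vale.Agent.P181.H382.H487

open Vale.Agent.P181.H382

theorem sum_ind (n z : ℕ) (hz : z ≤ n) : ∑ i : Fin n, (if (i : ℕ) < z then 1 else 0) = z := by
  rw [Fin.sum_univ_eq_sum_range (fun i => if i < z then 1 else 0) n, Finset.sum_boole]
  have h : (Finset.range n).filter (fun i => i < z) = Finset.range z := by
    ext i
    simp only [Finset.mem_filter, Finset.mem_range]
    omega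
  rw [h, Finset.card_range]
  rfl

/-- windows of width `X + 1` with different numbers are disjoint -/
theorem win_ne {X a b u v : ℕ} (hu : u ≤ X) (hv : v ≤ X) (h : a ≠ b) :
    a * (X + 1) + u ≠ b * (X + 1) + v := by
  intro h1
  apply h
  have h2 : (a * (X + 1) + u) / (X + 1) = a := by
    rw [Nat.add_comm, Nat.add_mul_div_right _ _ (Nat.succ_pos X),
      Nat.div_eq_of_lt (Nat.lt_succ_of_le hu), Nat.zero_add]
  have h3 : (b * (X + 1) + v) / (X + 1) = b := by
    rw [Nat.add_comm, Nat.add_mul_div_right _ _ (Nat.succ_pos X),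
      Nat.div_eq_of_lt (Nat.lt_succ_of_le hv), Nat.zero_add]
  rw [← h2, ← h3, h1]

theorem keyN : KeyN := by
  intro n m X t F hn hm hX ht hF
  classical
  let sg : (Fin n → Fin X) → ℕ := fun u => ∑ i, (u i : ℕ)
  let fb : ℕ → Finset (Fin n → Fin X) := fun s => Finset.univ.filter fun u => sg u = s
  have hsg : ∀ u ∈ (Finset.univ : Finset (Fin n → Fin X)), sg u ∈ Finset.range (n * X + 1) := by
    intro u _
    rw [Finset.mem_range, Nat.lt_succ_iff]
    calc sg u ≤ ∑ _i : Fin n, X := Finset.sum_le_sum fun i _ => (u i).2.le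
      _ = n * X := by rw [Finset.sum_const, Finset.card_univ, Fintype.card_fin, smul_eq_mul]
  obtain ⟨s, hs, hmax⟩ := Finset.exists_max_image (Finset.range (n * X + 1))
    (fun s => (fb s).card) ⟨0, Finset.mem_range.2 (Nat.succ_pos _)⟩
  have hcard : X ^ n ≤ (n * X + 1) * (fb s).card := by
    have h1 := Finset.card_eq_sum_card_fiberwise hsg
    have h2 : (Finset.univ : Finset (Fin n → Fin X)).card = X ^ n := by simp
    rw [h2] at h1
    rw [h1]
    calc _ ≤ ∑ _s ∈ Finset.range (n * X + 1), (fb s).card :=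
          Finset.sum_le_sum fun s' hs' => hmax s' hs'
      _ = _ := by rw [Finset.sum_const, Finset.card_range, smul_eq_mul]
  let B : ℕ := ∑ i : Fin n, ((i : ℕ) % m) * (X + 1)
  have hB : B ≤ n * (m * (X + 1)) := by
    calc B ≤ ∑ _i : Fin n, m * (X + 1) := Finset.sum_le_sum fun i _ =>
          Nat.mul_le_mul_right _ (Nat.mod_lt _ hm).le
      _ = _ := by rw [Finset.sum_const, Finset.card_univ, Fintype.card_fin, smul_eq_mul]
  have hsX : s ≤ n * X := Nat.lt_succ_iff.mp (Finset.mem_range.1 hs)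
  have hBs : B + s ≤ t := by
    have : (m * (X + 1) + X) * n = n * (m * (X + 1)) + n * X := by ring
    omega
  let Y : ℕ := (t - (B + s)) / n
  let z : ℕ := (t - (B + s)) % n
  have hz : z < n := Nat.mod_lt _ hn
  have hYz : n * Y + z = t - (B + s) := Nat.div_add_mod _ _
  have hY : Y ≤ t / n := Nat.div_le_div_right (Nat.sub_le _ _)
  let f : (Fin n → Fin X) → Fin n → ℕ := fun u i =>
    Y + (((i : ℕ) % m) * (X + 1) + ((u i : ℕ) + if (i : ℕ) < z then 1 else 0))
  have hle : ∀ (u : Fin n → Fin X) (i : Fin n), (u i : ℕ) + (if (i : ℕ) < z then 1 else 0) ≤ X := by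
    intro u i
    have := (u i).2
    split <;> omega
  refine ⟨(fb s).image f, ?_, ?_, ?_, ?_⟩
  · intro c hc
    obtain ⟨u, hu, rfl⟩ := Finset.mem_image.1 hc
    have hu' : ∑ i, (u i : ℕ) = s := (Finset.mem_filter.1 hu).2
    change ∑ i : Fin n, (Y + (((i : ℕ) % m) * (X + 1) + ((u i : ℕ) +
      if (i : ℕ) < z then 1 else 0))) = t
    rw [Finset.sum_add_distrib, Finset.sum_add_distrib, Finset.sum_add_distrib, hu',
      sum_ind n z hz.le, Finset.sum_const, Finset.card_univ, Fintype.card_fin, smul_eq_mul]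
    change n * Y + (B + (s + z)) = t
    omega
  · intro c hc i
    obtain ⟨u, hu, rfl⟩ := Finset.mem_image.1 hc
    have h1 := hle u i
    have h2 : ((i : ℕ) % m) * (X + 1) + (X + 1) ≤ m * (X + 1) := by
      have := Nat.mul_le_mul_right (X + 1) (Nat.succ_le_of_lt (Nat.mod_lt (i : ℕ) hm))
      rw [Nat.succ_mul] at this
      exact this
    change Y + (((i : ℕ) % m) * (X + 1) + ((u i : ℕ) + if (i : ℕ) < z then 1 else 0)) ≤ F
    omega
  · intro c hc c' hc' i i' hi hne
    obtain ⟨u, hu, rfl⟩ := Finset.mem_image.1 hc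
    obtain ⟨u', hu', rfl⟩ := Finset.mem_image.1 hc'
    have h1 : (i : ℕ) % m ≠ (i' : ℕ) % m := by
      intro h
      apply hne
      apply Fin.ext
      rw [← Nat.div_add_mod (i : ℕ) m, ← Nat.div_add_mod (i' : ℕ) m, hi, h]
    intro h2
    exact win_ne (hle u i) (hle u' i') h1 (Nat.add_left_cancel h2)
  · rw [Finset.card_image_of_injOn]
    · exact hcard
    · intro u hu u' hu' h
      funext i
      have h1 := congrFun h i
      apply Fin.ext
      change Y + (((i : ℕ) % m) * (X + 1) + ((u i : ℕ) + if (i : ℕ) < z then 1 else 0)) =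
        Y + (((i : ℕ) % m) * (X + 1) + ((u' i : ℕ) + if (i : ℕ) < z then 1 else 0)) at h1
      omega

end Vale.Agent.P181.H382.H487
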